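import Vale.Agent.P323.Z.Fml

/-!
# Formal proofs, consistency, and the axioms of ZFC

`Fml n`: formulas of set theory in the variables `x₀, …, xₙ₋₁`; `all φ` binds the last variable
`la`, and `up i` is the variable `i` below a quantifier. In the closed axioms the variables are
written as numerals, numbered in the order of the quantifiers.
-/

namespace Vale.Agent.P070ZQ

open Vale.Agent.P323.Z Vale.Agent.P323.Z.Fml

variable {n : ℕ}

/-- the last variable -/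
def la : Fin (n + 1) := Fin.last n

/-- an old variable below one new quantifier -/
def up (i : Fin n) : Fin (n + 1) := Fin.castSucc i

/-- `φ`, read as a formula in one more variable -/
def lift (φ : Fml n) : Fml (n + 1) := φ.rename up

/-- `φ` with the variable `xᵢ` in place of its last variable -/
def inst (φ : Fml (n + 1)) (i : Fin n) : Fml n := φ.rename (Fin.snoc id i)

/-- Natural deduction for classical first-order logic with equality. `Prf T Γ φ`: the formula `φ`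
has a formal proof from the sentences in `T` and the hypotheses in `Γ`. -/
inductive Prf (T : Set (Fml 0)) : ∀ {n : ℕ}, List (Fml n) → Fml n → Prop
  | ax {n Γ ψ} : ψ ∈ T → Prf T Γ (ψ.rename Fin.elim0 : Fml n)
  | hyp {n Γ} {φ : Fml n} : φ ∈ Γ → Prf T Γ φ
  | impI {n Γ} {φ ψ : Fml n} : Prf T (φ :: Γ) ψ → Prf T Γ (imp φ ψ)
  | impE {n Γ} {φ ψ : Fml n} : Prf T Γ (imp φ ψ) → Prf T Γ φ → Prf T Γ ψ
  | raa {n Γ} {φ : Fml n} : Prf T (neg φ :: Γ) bot → Prf T Γ φ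
  | allI {n Γ} {φ : Fml (n + 1)} : Prf T (Γ.map lift) φ → Prf T Γ (all φ)
  | allE {n Γ} {φ : Fml (n + 1)} (i : Fin n) : Prf T Γ (all φ) → Prf T Γ (inst φ i)
  | refl {n Γ} (i : Fin n) : Prf T Γ (eq i i)
  | subst {n Γ} (φ : Fml (n + 1)) (i j : Fin n) :
      Prf T Γ (eq i j) → Prf T Γ (inst φ i) → Prf T Γ (inst φ j)
  | nonempty {n : ℕ} {Γ : List (Fml n)} : Prf T (Γ.map lift) bot → Prf T Γ bot

/-- `T` is consistent. -/
def Con (T : Set (Fml 0)) : Prop := ¬ Prf T ([] : List (Fml 0)) bot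

/-- universal closure -/
def clo : ∀ {n : ℕ}, Fml n → Fml 0
  | 0, φ => φ
  | _ + 1, φ => clo (all φ)

/-- `∀ x y, (∀ z, z ∈ x ↔ z ∈ y) → x = y` -/
def extF : Fml 0 :=
  all (all (imp (all (iff (mem 2 0) (mem 2 1) : Fml 3)) (eq 0 1) : Fml 2) : Fml 1)

/-- `∀ x, (∃ y, y ∈ x) → ∃ y, y ∈ x ∧ ∀ z, z ∈ x → z ∉ y` -/
def fndF : Fml 0 :=
  all (imp (ex (mem 1 0 : Fml 2))
    (ex (and (mem 1 0) (all (imp (mem 2 0) (neg (mem 2 1)) : Fml 3)) : Fml 2)) : Fml 1)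

/-- `∀ x y, ∃ p, ∀ z, z ∈ p ↔ z = x ∨ z = y` -/
def pairF : Fml 0 :=
  all (all (ex (all (iff (mem 3 2) (or (eq 3 0) (eq 3 1)) : Fml 4) : Fml 3) : Fml 2) : Fml 1)

/-- `∀ x, ∃ u, ∀ z, z ∈ u ↔ ∃ y, y ∈ x ∧ z ∈ y` -/
def unionF : Fml 0 :=
  all (ex (all (iff (mem 2 1) (ex (and (mem 3 0) (mem 2 3) : Fml 4)) : Fml 3) : Fml 2) : Fml 1)

/-- `∀ x, ∃ p, ∀ z, z ∈ p ↔ ∀ w, w ∈ z → w ∈ x` -/
def powF : Fml 0 :=
  all (ex (all (iff (mem 2 1) (all (imp (mem 3 2) (mem 3 0) : Fml 4)) : Fml 3) : Fml 2) : Fml 1)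

/-- `∃ w, (∃ e, e ∈ w ∧ ∀ z, z ∉ e) ∧ ∀ x, x ∈ w → ∃ s, s ∈ w ∧ ∀ z, z ∈ s ↔ z ∈ x ∨ z = x` -/
def infF : Fml 0 :=
  ex (and (ex (and (mem 1 0) (all (neg (mem 2 1) : Fml 3)) : Fml 2))
    (all (imp (mem 1 0) (ex (and (mem 2 0)
      (all (iff (mem 3 2) (or (mem 3 1) (eq 3 1)) : Fml 4)) : Fml 3)) : Fml 2)) : Fml 1)

/-- `p = {x, y}` -/
def upairF (p x y : Fin n) : Fml n := all (iff (mem la (up p)) (or (eq la (up x)) (eq la (up y))))

/-- `p = (x, y)` -/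
def opairF (p x y : Fin n) : Fml n :=
  ex (ex (and (upairF (up la) (up (up x)) (up (up x)))
    (and (upairF la (up (up x)) (up (up y))) (upairF (up (up p)) (up la) la))))

/-- `(x, y) ∈ f` -/
def pairMemF (x y f : Fin n) : Fml n := ex (and (opairF la (up x) (up y)) (mem la (up f)))

/-- Every set `x₀` of nonempty sets has a choice function: there are `x₁`, `x₂` such that `x₁` is
a function from `x₀` to `x₂` and `b ∈ a` whenever `(a, b) ∈ x₁`. -/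
def acF : Fml 0 :=
  all (imp (all (imp (mem 1 0) (ex (mem 2 1 : Fml 3)) : Fml 2))
    (ex (ex (and (and
      (all (imp (mem 3 1)
        (ex (ex (and (mem 4 0) (and (mem 5 2) (opairF 3 4 5)) : Fml 6) : Fml 5)) : Fml 4))
      (all (imp (mem 3 0) (ex (and (pairMemF 3 4 1)
        (all (imp (pairMemF 3 5 1) (eq 5 4) : Fml 6)) : Fml 5)) : Fml 4)))
      (all (all (imp (pairMemF 3 4 1) (mem 4 3) : Fml 5) : Fml 4)) : Fml 3) : Fml 2)) : Fml 1)

/-- Separation for `φ(v, x)`: `∀ a, ∃ b, ∀ x, x ∈ b ↔ x ∈ a ∧ φ(v, x)` -/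
def sepF (φ : Fml (n + 1)) : Fml n :=
  all (ex (all (iff (mem la (up la)) (and (mem la (up (up la)))
    (φ.rename (Fin.snoc (fun i => up (up (up i))) la))))))

/-- `φ(v, x, y)`, where `r` renames `v` -/
def at2 {m : ℕ} (φ : Fml (n + 2)) (r : Fin n → Fin m) (x y : Fin m) : Fml m :=
  φ.rename (Fin.snoc (Fin.snoc r x : Fin (n + 1) → _) y)

/-- Replacement for `φ(v, x, y)`: `∀ a, (∀ x, x ∈ a → ∃ y, φ(v, x, y) ∧ ∀ z, φ(v, x, z) → z = y) →
∃ b, ∀ y, y ∈ b ↔ ∃ x, x ∈ a ∧ φ(v, x, y)` -/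
def repF (φ : Fml (n + 2)) : Fml n :=
  all (imp
    (all (imp (mem la (up la)) (ex (and (at2 φ (fun i => up (up (up i))) (up la) la)
      (all (imp (at2 φ (fun i => up (up (up (up i)))) (up (up la)) la) (eq la (up la))))))))
    (ex (all (iff (mem la (up la)) (ex (and (mem la (up (up (up la))))
      (at2 φ (fun i => up (up (up (up i)))) la (up la))))))))

/-- The axioms of ZFC. -/
def ZFC : Set (Fml 0) :=
  {ψ | ψ ∈ [extF, fndF, pairF, unionF, powF, infF, acF] ∨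
    (∃ n, ∃ φ : Fml (n + 1), ψ = clo (sepF φ)) ∨ ∃ n, ∃ φ : Fml (n + 2), ψ = clo (repF φ)}

end Vale.Agent.P070ZQ
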