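import Vale.Agent.P070ZS.Codes

/-!
# Sets that code a C*-algebra
-/

namespace Vale.Agent.P070ZQ

open Vale.Agent.P070Z Vale.Agent.P070ZS Vale.Agent.P070.Naimark

universe u

/-- `(H, X)` is a copy of `A` among sets: for some faithful representation `π` of `A` on a Hilbert
space `L`, `H` is a copy of `L` and `X` is the set of the graphs of the operators `π a`. -/
def Codes (ρ : ℝ → ZFSet.{u}) (H : Hilb ZFSet.{u}) (X : ZFSet.{u}) (A : Type u)
    [NonUnitalCStarAlgebra A] : Prop :=
  ∃ (L : Type u) (_ : NormedAddCommGroup L) (_ : InnerProductSpace ℂ L) (_ : CompleteSpace L)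
    (e : L → ZFSet.{u}) (π : Rep A L), IsFaithful π ∧ CodesHilb ρ H e ∧
      CodesAlg e X (Set.range π.op)

end Vale.Agent.P070ZQ
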