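import Vale.Agent.P070.Statement
import Mathlib.Analysis.CStarAlgebra.GelfandNaimarkSegal
import Mathlib.Analysis.CStarAlgebra.GelfandDuality
import Mathlib.Analysis.CStarAlgebra.Unitization
import Mathlib.Analysis.CStarAlgebra.Hom
import Mathlib.Analysis.Normed.Lp.lpHolder

/-!
# Every C*-algebra has a faithful representation
-/

set_option linter.all false

open scoped ENNReal InnerProductSpace ComplexOrder

namespace Vale.Agent.P070ZQ

noncomputable section

universe u

section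

variable {P : Type u} [CStarAlgebra P] [PartialOrder P] [StarOrderedRing P]

omit [PartialOrder P] [StarOrderedRing P] in
/-- A norm-one functional taking the value one at the identity is real on self-adjoint elements. -/
theorem im_eq_zero_of_norm_le_one {φ : P →L[ℂ] ℂ} (hφ : ‖φ‖ ≤ 1) (h1 : φ 1 = 1) {b : P}
    (hb : IsSelfAdjoint b) : (φ b).im = 0 := by
  have key : ∀ t : ℝ, (φ b).re ^ 2 + ((φ b).im + t) ^ 2 ≤ ‖b‖ ^ 2 + t ^ 2 := by
    intro t
    have e1 : φ (b + ((t : ℂ) * Complex.I) • (1 : P)) = φ b + t * Complex.I := by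
      rw [map_add, map_smul, h1, smul_eq_mul, mul_one]
    have e2 : ‖φ (b + ((t : ℂ) * Complex.I) • (1 : P))‖ ≤ ‖b + ((t : ℂ) * Complex.I) • (1 : P)‖ := by
      calc _ ≤ ‖φ‖ * ‖b + ((t : ℂ) * Complex.I) • (1 : P)‖ := φ.le_opNorm _
        _ ≤ 1 * ‖b + ((t : ℂ) * Complex.I) • (1 : P)‖ := by gcongr
        _ = _ := one_mul _
    have e3 : ‖b + ((t : ℂ) * Complex.I) • (1 : P)‖ ^ 2 ≤ ‖b‖ ^ 2 + t ^ 2 := by
      rw [sq, ← CStarRing.norm_star_mul_self]
      have : star (b + ((t : ℂ) * Complex.I) • (1 : P)) * (b + ((t : ℂ) * Complex.I) • (1 : P)) =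
          b * b + ((t ^ 2 : ℝ) : ℂ) • (1 : P) := by
        rw [star_add, star_smul, star_one, hb.star_eq]
        have hs : star ((t : ℂ) * Complex.I) = -((t : ℂ) * Complex.I) := by
          simp only [star_mul', RCLike.star_def, Complex.conj_ofReal, Complex.conj_I, mul_neg]
        rw [hs, add_mul, mul_add, mul_add, smul_mul_smul_comm, mul_smul_comm, smul_mul_assoc,
          mul_one, one_mul, mul_one]
        have : -((t : ℂ) * Complex.I) * ((t : ℂ) * Complex.I) = ((t ^ 2 : ℝ) : ℂ) := by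
          have : Complex.I * Complex.I = -1 := Complex.I_mul_I
          push_cast
          linear_combination (-(t : ℂ) ^ 2) * this
        rw [this, neg_smul]
        abel
      rw [this]
      refine (norm_add_le _ _).trans ?_
      gcongr
      · rw [sq, ← CStarRing.norm_star_mul_self, hb.star_eq]
      · rcases subsingleton_or_nontrivial P with hP | hP
        · have : (1 : P) = 0 := Subsingleton.elim _ _
          rw [this, smul_zero, norm_zero]; (clear * -; positivity)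
        · rw [norm_smul, norm_one, mul_one, Complex.norm_real, Real.norm_of_nonneg (by (clear * -; positivity))]
    rw [e1] at e2
    have e4 : ‖φ b + t * Complex.I‖ ^ 2 = (φ b).re ^ 2 + ((φ b).im + t) ^ 2 := by
      rw [← Complex.normSq_eq_norm_sq, Complex.normSq_apply]
      simp only [Complex.add_re, Complex.mul_re, Complex.ofReal_re, Complex.I_re, mul_zero, Complex.ofReal_im, Complex.I_im, mul_one, sub_self, add_zero, Complex.add_im, Complex.mul_im]
      ring
    rw [← e4]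
    calc ‖φ b + t * Complex.I‖ ^ 2 ≤ ‖b + ((t : ℂ) * Complex.I) • (1 : P)‖ ^ 2 := by (clear * - e2; gcongr)
      _ ≤ _ := e3
  by_contra h
  have h2 := key ((‖b‖ ^ 2 + 1) / (2 * (φ b).im))
  have h3 : 2 * (φ b).im * ((‖b‖ ^ 2 + 1) / (2 * (φ b).im)) = ‖b‖ ^ 2 + 1 := by
    (clear * - h; field_simp)
  nlinarith only [h2, h3]

/-- A norm-one functional taking the value one at the identity is positive. -/
theorem nonneg_of_norm_le_one {φ : P →L[ℂ] ℂ} (hφ : ‖φ‖ ≤ 1) (h1 : φ 1 = 1) {b : P}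
    (hb : 0 ≤ b) : 0 ≤ φ b := by
  have hsa : IsSelfAdjoint b := .of_nonneg hb
  have him := im_eq_zero_of_norm_le_one hφ h1 hsa
  have hre : 0 ≤ (φ b).re := by
    have e1 : ‖(‖b‖ : ℂ) • (1 : P) - b‖ ≤ ‖b‖ := by
      have := IsSelfAdjoint.le_algebraMap_norm_self hsa
      have h2 : 0 ≤ algebraMap ℝ P ‖b‖ - b := sub_nonneg.2 this
      have h3 : algebraMap ℝ P ‖b‖ - b ≤ algebraMap ℝ P ‖b‖ := sub_le_self _ hb
      have h4 := CStarAlgebra.norm_le_norm_of_nonneg_of_le h2 h3
      have h5 : algebraMap ℝ P ‖b‖ = (‖b‖ : ℂ) • (1 : P) := by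
        rw [Algebra.algebraMap_eq_smul_one, Complex.coe_smul]
      rw [h5] at h4
      refine h4.trans ?_
      rcases subsingleton_or_nontrivial P with hP | hP
      · have : (1 : P) = 0 := Subsingleton.elim _ _
        rw [this, smul_zero, norm_zero]; positivity
      · rw [norm_smul, norm_one, mul_one, Complex.norm_real, norm_norm]
    have e2 : ‖φ ((‖b‖ : ℂ) • (1 : P) - b)‖ ≤ ‖b‖ := by
      calc _ ≤ ‖φ‖ * ‖(‖b‖ : ℂ) • (1 : P) - b‖ := φ.le_opNorm _
        _ ≤ 1 * ‖b‖ := by gcongr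
        _ = _ := one_mul _
    rw [map_sub, map_smul, h1, smul_eq_mul, mul_one] at e2
    have e3 : |((‖b‖ : ℂ) - φ b).re| ≤ ‖b‖ := (Complex.abs_re_le_norm _).trans e2
    rw [Complex.sub_re, Complex.ofReal_re] at e3
    have := (abs_le.1 e3).2
    linarith only [this]
  exact Complex.nonneg_iff.2 ⟨hre, him.symm⟩

/-- A norm-one functional taking the value one at the identity, as a positive map. -/
def toPositive (φ : P →L[ℂ] ℂ) (hφ : ‖φ‖ ≤ 1) (h1 : φ 1 = 1) : P →ₚ[ℂ] ℂ :=
  PositiveLinearMap.mk₀ φ.toLinearMap fun _ hb => nonneg_of_norm_le_one hφ h1 hb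

@[simp] theorem toPositive_apply (φ : P →L[ℂ] ℂ) (hφ : ‖φ‖ ≤ 1) (h1 : φ 1 = 1) (x : P) :
    toPositive φ hφ h1 x = φ x := rfl

/-- Norm-attaining states. -/
theorem exists_state_norm [Nontrivial P] (x : P) :
    ∃ ψ : P →ₚ[ℂ] ℂ, ψ 1 = 1 ∧ ψ (star x * x) = (‖x‖ ^ 2 : ℝ) := by
  set a := star x * x with ha
  have ha0 : 0 ≤ a := star_mul_self_nonneg x
  have hsa : IsSelfAdjoint a := .of_nonneg ha0
  have hn : IsStarNormal a := hsa.isStarNormal
  let a' : StarAlgebra.elemental ℂ a := ⟨a, StarAlgebra.elemental.self_mem ℂ a⟩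
  have hz0 : ((‖a‖ : ℝ) : ℂ) ∈ spectrum ℂ a :=
    spectrum.algebraMap_mem ℂ (CStarAlgebra.norm_mem_spectrum_of_nonneg ha0)
  have hz : ((‖a‖ : ℝ) : ℂ) ∈ spectrum ℂ a' := 
    (StarSubalgebra.mem_spectrum_iff (StarAlgebra.elemental ℂ a)
      (hS := StarAlgebra.elemental.isClosed ℂ a)).2 hz0
  obtain ⟨χ, hχ⟩ := WeakDual.CharacterSpace.mem_spectrum_iff_exists.1 hz
  let f : (StarAlgebra.elemental ℂ a).toSubalgebra.toSubmodule →L[ℂ] ℂ :=
    WeakDual.CharacterSpace.toCLM χ
  have hf : ‖f‖ ≤ 1 := by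
    have h2 := WeakDual.CharacterSpace.norm_le_norm_one χ
    refine ContinuousLinearMap.opNorm_le_bound _ zero_le_one fun y => ?_
    have h3 := (WeakDual.toStrongDual (χ : WeakDual ℂ (StarAlgebra.elemental ℂ a))).le_opNorm y
    rw [norm_one] at h2
    exact h3.trans (mul_le_mul_of_nonneg_right h2 (norm_nonneg _))
  obtain ⟨g, hg1, hg2⟩ := exists_extension_norm_eq
    (StarAlgebra.elemental ℂ a).toSubalgebra.toSubmodule f
  have hgn : ‖g‖ ≤ 1 := hg2 ▸ hf
  have hg1' : g 1 = 1 := by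
    have := hg1 (1 : StarAlgebra.elemental ℂ a)
    refine this.trans ?_
    exact map_one χ
  refine ⟨toPositive g hgn hg1', by simpa only [toPositive_apply] using hg1', ?_⟩
  rw [toPositive_apply]
  have h2 := hg1 a'
  refine h2.trans ?_
  have h3 : f a' = χ a' := rfl
  rw [h3, hχ, ha, CStarRing.norm_star_mul_self, sq]

end

/-- For every element a representation in which its norm is attained. -/
theorem exists_rep_norm (D : Type u) [CStarAlgebra D] [Nontrivial D] (x : D) :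
    ∃ (K : Type u) (_ : NormedAddCommGroup K) (_ : InnerProductSpace ℂ K) (_ : CompleteSpace K)
      (π : D →⋆ₐ[ℂ] (K →L[ℂ] K)) (ξ : K), ‖ξ‖ = 1 ∧ ‖π x ξ‖ = ‖x‖ := by
  letI : PartialOrder D := CStarAlgebra.spectralOrder D
  letI : StarOrderedRing D := CStarAlgebra.spectralOrderedRing D
  obtain ⟨ψ, hψ1, hψx⟩ := exists_state_norm x
  refine ⟨ψ.GNS, inferInstance, inferInstance, inferInstance, ψ.gnsStarAlgHom,
    ((ψ.toPreGNS 1 : ψ.PreGNS) : ψ.GNS), ?_, ?_⟩
  · rw [UniformSpace.Completion.norm_coe]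
    have h2 := ψ.preGNS_norm_sq (ψ.toPreGNS 1)
    simp only [PositiveLinearMap.ofPreGNS_toPreGNS, star_one, mul_one, hψ1] at h2
    have h3 : ‖ψ.toPreGNS 1‖ ^ 2 = 1 := by exact_mod_cast h2
    nlinarith [norm_nonneg (ψ.toPreGNS (1 : D))]
  · have h1 : ψ.gnsStarAlgHom x ((ψ.toPreGNS 1 : ψ.PreGNS) : ψ.GNS)
        = ((ψ.toPreGNS (x * 1) : ψ.PreGNS) : ψ.GNS) := by
      show ψ.gnsNonUnitalStarAlgHom x ((ψ.toPreGNS 1 : ψ.PreGNS) : ψ.GNS) = _
      rw [PositiveLinearMap.gnsNonUnitalStarAlgHom_apply_coe]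
      rfl
    rw [h1, UniformSpace.Completion.norm_coe, mul_one]
    have h2 := ψ.preGNS_norm_sq (ψ.toPreGNS x)
    rw [PositiveLinearMap.ofPreGNS_toPreGNS, hψx] at h2
    have h3 : ‖ψ.toPreGNS x‖ ^ 2 = ‖x‖ ^ 2 := by exact_mod_cast h2
    exact (sq_eq_sq₀ (norm_nonneg _) (norm_nonneg _)).1 h3

section dsum

variable {ι : Type u} {K : ι → Type u} [∀ i, NormedAddCommGroup (K i)]
  [∀ i, InnerProductSpace ℂ (K i)] [∀ i, CompleteSpace (K i)] {D : Type u} [CStarAlgebra D]

/-- the direct sum of representations -/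
def dsum (π : ∀ i, D →⋆ₐ[ℂ] (K i →L[ℂ] K i)) : D →⋆ₐ[ℂ] (lp K 2 →L[ℂ] lp K 2) where
  toFun x := lp.mapCLM 2 (fun i => π i x) (norm_nonneg x)
    fun i => NonUnitalStarAlgHom.norm_apply_le (π i) x
  map_one' := by
    ext f i
    show π i 1 (f i) = f i
    rw [map_one]
    rfl
  map_mul' a b := by
    ext f i
    show π i (a * b) (f i) = π i a (π i b (f i))
    rw [map_mul]
    rfl
  map_zero' := by
    ext f i
    show π i 0 (f i) = 0
    rw [map_zero]
    rfl
  map_add' a b := by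
    ext f i
    show π i (a + b) (f i) = π i a (f i) + π i b (f i)
    rw [map_add]
    rfl
  commutes' c := by
    ext f i
    show π i (algebraMap ℂ D c) (f i) = c • f i
    rw [AlgHomClass.commutes]
    rfl
  map_star' b := by
    rw [ContinuousLinearMap.star_eq_adjoint]
    refine (ContinuousLinearMap.eq_adjoint_iff _ _).2 fun f g => ?_
    rw [lp.inner_eq_tsum, lp.inner_eq_tsum]
    refine tsum_congr fun i => ?_
    show ⟪π i (star b) (f i), g i⟫_ℂ = ⟪f i, π i b (g i)⟫_ℂ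
    rw [map_star, ContinuousLinearMap.star_eq_adjoint, ContinuousLinearMap.adjoint_inner_left]

theorem dsum_apply (π : ∀ i, D →⋆ₐ[ℂ] (K i →L[ℂ] K i)) (x : D) (f : lp K 2) (i : ι) :
    dsum π x f i = π i x (f i) := rfl

end dsum

/-- Every unital C*-algebra has a faithful unital representation. -/
theorem exists_faithful_rep (D : Type u) [CStarAlgebra D] [Nontrivial D] :
    ∃ (K : Type u) (_ : NormedAddCommGroup K) (_ : InnerProductSpace ℂ K) (_ : CompleteSpace K)
      (π : D →⋆ₐ[ℂ] (K →L[ℂ] K)), Function.Injective π := by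
  classical
  choose K h1 h2 h3 π ξ hξ hπ using exists_rep_norm D
  refine ⟨lp K 2, inferInstance, inferInstance, inferInstance, dsum π, ?_⟩
  rw [injective_iff_map_eq_zero]
  intro x hx
  have e1 : dsum π x (lp.single 2 x (ξ x)) x = π x x (ξ x) := by
    rw [dsum_apply, lp.single_apply_self]
  rw [hx] at e1
  have e2 : ‖x‖ = 0 := by
    rw [← hπ x, ← e1]
    show ‖(0 : K x)‖ = 0
    exact norm_zero
  exact norm_eq_zero.1 e2

/-- **Gelfand-Naimark.** -/
theorem exists_faithful (A : Type u) [NonUnitalCStarAlgebra A] :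
    ∃ (L : Type u) (_ : NormedAddCommGroup L) (_ : InnerProductSpace ℂ L) (_ : CompleteSpace L)
      (π : P070.Naimark.Rep A L), P070.Naimark.IsFaithful π := by
  obtain ⟨L, _, _, _, π, hπ⟩ := exists_faithful_rep (Unitization ℂ A)
  exact ⟨L, inferInstance, inferInstance, inferInstance,
    (π : Unitization ℂ A →⋆ₙₐ[ℂ] (L →L[ℂ] L)).comp (Unitization.inrNonUnitalStarAlgHom ℂ A),
    hπ.comp Unitization.inr_injective⟩

end

end Vale.Agent.P070ZQ
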