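import Vale.Agent.P070ZQ.Defs
import Vale.Agent.P070ZQ.GN
import Vale.Agent.P070ZS.Faith

/-!
# The internal notions for codes of abstract C*-algebras
-/

namespace Vale.Agent.P070ZQ

open Vale.Agent.P129Z.S Vale.Agent.P070Z Vale.Agent.P070ZS Vale.Agent.P070

universe u v

section Iso

variable {A B : Type u} [NonUnitalCStarAlgebra A] [NonUnitalCStarAlgebra B]

/-- pull back of a representation -/
noncomputable def pull (f : A →⋆ₙₐ[ℂ] B) {L : Type v} [NormedAddCommGroup L] [InnerProductSpace ℂ L]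
    [CompleteSpace L] (π : Naimark.Rep B L) : Naimark.Rep A L :=
  NonUnitalStarAlgHom.comp π f

theorem pull_op (f : A →⋆ₙₐ[ℂ] B) {L : Type v} [NormedAddCommGroup L] [InnerProductSpace ℂ L]
    [CompleteSpace L] (π : Naimark.Rep B L) (a : A) : (pull f π).op a = π.op (f a) := rfl

theorem irred_pull {f : A →⋆ₙₐ[ℂ] B} (hf : Function.Surjective f) {L : Type v}
    [NormedAddCommGroup L] [InnerProductSpace ℂ L] [CompleteSpace L] {π : Naimark.Rep B L}
    (h : Naimark.IsIrred π) : Naimark.IsIrred (pull f π) := by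
  obtain ⟨⟨b, x, hb⟩, h2⟩ := h
  obtain ⟨a, rfl⟩ := hf b
  refine ⟨⟨a, x, hb⟩, fun V hV hi => h2 V hV fun b => ?_⟩
  obtain ⟨a, rfl⟩ := hf b
  exact hi a

theorem propertyN_of_bij {f : A →⋆ₙₐ[ℂ] B} (hf : Function.Bijective f)
    (h : Naimark.PropertyN.{u, v} A) : Naimark.PropertyN.{u, v} B := by
  refine ⟨have := h.1; hf.1.nontrivial, fun L M _ _ _ _ _ _ π σ h1 h2 => ?_⟩
  obtain ⟨W, hW⟩ := h.2 L M _ _ (irred_pull hf.2 h1) (irred_pull hf.2 h2)
  refine ⟨W, fun b => ?_⟩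
  obtain ⟨a, rfl⟩ := hf.2 b
  exact hW a

theorem isCompacts_of_bij {f : A →⋆ₙₐ[ℂ] B} (hf : Function.Bijective f)
    (h : Naimark.IsCompacts.{u, v} B) : Naimark.IsCompacts.{u, v} A := by
  obtain ⟨L, _, _, _, π, h1, h2⟩ := h
  refine ⟨L, _, _, _, pull f π, h1.comp hf.1, fun T => (h2 T).trans ⟨?_, ?_⟩⟩
  · rintro ⟨b, rfl⟩
    obtain ⟨a, rfl⟩ := hf.2 b
    exact ⟨a, rfl⟩
  · rintro ⟨a, rfl⟩
    exact ⟨f a, rfl⟩

theorem iff_of_bij {f : A →⋆ₙₐ[ℂ] B} (hf : Function.Bijective f) :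
    (Naimark.PropertyN.{u, v} B ↔ Naimark.PropertyN.{u, v} A) ∧
      (Naimark.IsCompacts.{u, v} B ↔ Naimark.IsCompacts.{u, v} A) := by
  let e := StarAlgEquiv.ofBijective f hf
  have hg : Function.Bijective (e.symm : B →⋆ₙₐ[ℂ] A) := e.symm.bijective
  exact ⟨⟨propertyN_of_bij hg, propertyN_of_bij hf⟩, isCompacts_of_bij hf, isCompacts_of_bij hg⟩

theorem exists_range {L : Type u} [NormedAddCommGroup L] [InnerProductSpace ℂ L]
    [CompleteSpace L] {π : Naimark.Rep A L} (h : Naimark.IsFaithful π) :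
    ∃ (B : NonUnitalStarSubalgebra ℂ (L →L[ℂ] L)) (_ : IsClosed (B : Set (L →L[ℂ] L)))
      (f : A →⋆ₙₐ[ℂ] B), Function.Bijective f ∧ Set.range π.op = B := by
  let p : A →⋆ₙₐ[ℂ] (L →L[ℂ] L) := π
  have hp : Function.Injective p := h
  refine ⟨NonUnitalStarAlgHom.range p,
    (NonUnitalStarAlgHom.isometry p hp).isClosedEmbedding.isClosed_range,
    NonUnitalStarAlgHom.rangeRestrict p, ⟨fun a b e => hp (congrArg Subtype.val e), ?_⟩, rfl⟩
  rintro ⟨_, a, rfl⟩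
  exact ⟨a, rfl⟩

end Iso

variable {R : Reals ZFSet.{u}} {K : Scalars ZFSet.{u}} {ρ : ℝ → ZFSet.{u}}

theorem codes_import (hR : CodesReal R ρ) (hK : IsComplexScalars In R K) {H : Hilb ZFSet.{u}}
    {X : ZFSet.{u}} (hH : IsHilbert In R K H) (hX : IsCStar In R K H X) :
    ∃ (A : Type u) (_ : NonUnitalCStarAlgebra A), Codes ρ H X A := by
  obtain ⟨L, _, _, _, e, B, hB, h1, h2⟩ := faith_import hR hK hH hX
  refine ⟨B, inferInstance, L, _, _, _, e, NonUnitalStarSubalgebraClass.subtype B,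
    Subtype.val_injective, h1, ?_⟩
  have : Set.range (Naimark.Rep.op (A := B) (NonUnitalStarSubalgebraClass.subtype B)) = B :=
    Subtype.range_coe
  rwa [this]

theorem codes_export (hR : CodesReal R ρ) (hK : IsComplexScalars In R K) (A : Type u)
    [NonUnitalCStarAlgebra A] :
    ∃ H X, IsHilbert In R K H ∧ IsCStar In R K H X ∧ Codes ρ H X A := by
  obtain ⟨L, _, _, _, π, hπ⟩ := exists_faithful A
  obtain ⟨B, hB, -, -, e1⟩ := exists_range hπ
  obtain ⟨H, X, e, h1, h2, h3, h4⟩ := faith_export hR hK L B hB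
  exact ⟨H, X, h1, h2, L, _, _, _, e, π, hπ, h3, e1 ▸ h4⟩

theorem codes_transfer (hR : CodesReal R ρ) (hK : IsComplexScalars In R K) (A : Type u)
    [NonUnitalCStarAlgebra A] {H : Hilb ZFSet.{u}} {X : ZFSet.{u}} (h : Codes ρ H X A) :
    (PropN In R K H X ↔ Naimark.PropertyN.{u, u} A) ∧
      (IsCompacts In R K H X ↔ Naimark.IsCompacts.{u, u} A) := by
  obtain ⟨L, _, _, _, e, π, hπ, h1, h2⟩ := h
  obtain ⟨B, hB, f, hf, e1⟩ := exists_range hπ
  have h3 := faith_transfer hR hK B h1 (e1 ▸ h2)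
  exact ⟨h3.1.trans (iff_of_bij hf).1, h3.2.trans (iff_of_bij hf).2⟩

theorem counter_iff : Counter In.{u} ↔ ∃ (A : Type u) (_ : NonUnitalCStarAlgebra A),
    Naimark.PropertyN.{u, u} A ∧ ¬ Naimark.IsCompacts.{u, u} A := by
  refine faith_counter.trans ⟨fun ⟨_, _, _, _, B, _, h⟩ => ⟨B, inferInstance, h⟩, ?_⟩
  rintro ⟨A, _, h1, h2⟩
  obtain ⟨L, _, _, _, π, hπ⟩ := exists_faithful A
  obtain ⟨B, hB, f, hf, -⟩ := exists_range hπ
  exact ⟨L, _, _, _, B, hB, (iff_of_bij hf).1.2 h1, fun c => h2 ((iff_of_bij hf).2.1 c)⟩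

end Vale.Agent.P070ZQ
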