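import Vale.Agent.P070ZQ.Ax
import Vale.Agent.P070ZQ.Faith
import Vale.Agent.P070ZD.Final
import Vale.Agent.P070Z.Syn

/-!
# Comparison of the two presentations of the proof system
-/

namespace Vale.Agent.P070ZQ

open Vale.Agent.P323.Z Vale.Agent.P129Z.S Vale.Agent.P129B Vale.Agent.P070Z

universe v

theorem prf_iff {T : Set (Fml 0)} {n : ℕ} {Γ : List (Fml n)} {φ : Fml n} :
    Prf T Γ φ ↔ Syn.Prf T Γ φ := by
  constructor
  · intro h
    induction h with
    | ax h => exact .ax h
    | hyp h => exact .hyp h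
    | impI _ ih => exact .impI ih
    | impE _ _ a b => exact .impE a b
    | raa _ ih => exact .raa ih
    | allI _ ih => exact .allI ih
    | allE i _ ih => exact .allE i ih
    | refl i => exact .refl i
    | subst φ i j _ _ a b => exact .subst φ i j a b
    | nonempty _ ih => exact .nonempty ih
  · intro h
    induction h with
    | ax h => exact .ax h
    | hyp h => exact .hyp h
    | impI _ ih => exact .impI ih
    | impE _ _ a b => exact .impE a b
    | raa _ ih => exact .raa ih
    | allI _ ih => exact .allI ih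
    | allE i _ ih => exact .allE i ih
    | refl i => exact .refl i
    | subst φ i j _ _ a b => exact .subst φ i j a b
    | nonempty _ ih => exact .nonempty ih

theorem con_iff {T : Set (Fml 0)} : Con T ↔ Syn.Con T := not_congr prf_iff

theorem clo_eq : ∀ {n : ℕ} (φ : Fml n), clo φ = Syn.clo φ
  | 0, _ => rfl
  | _ + 1, φ => clo_eq φ.all

theorem zfc_eq : ZFC = Syn.ZFC := by
  ext ψ
  have e1 : extF = Syn.extF := rfl
  have e2 : fndF = Syn.fndF := rfl
  have e3 : pairF = Syn.pairF := rfl
  have e4 : unionF = Syn.unionF := rfl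
  have e5 : powF = Syn.powF := rfl
  have e6 : infF = Syn.infF := rfl
  have e7 : acF = Fml.acF := rfl
  have e8 : @sepF = @Syn.sepF := rfl
  have e9 : @repF = @Syn.repF := rfl
  simp only [ZFC, Syn.ZFC, e1, e2, e3, e4, e5, e6, e7, e8, e9, clo_eq, Set.mem_ofPred_eq,
    Set.mem_union, Set.mem_insert_iff, Set.mem_singleton_iff, List.mem_cons, List.not_mem_nil,
    or_false, or_assoc]

theorem part1 : ∃ φ : Fml 0,
    (∀ (M : Type v) (E : M → M → Prop), φ.Sat E Fin.elim0 ↔ Counter E) ∧
      Prf ZFC [] φ ∧ ¬ Con (ZFC ∪ {φ.neg}) := by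
  simp only [prf_iff, con_iff, zfc_eq]
  exact prf_of_models fun _ _ => counter

theorem part3 : Con ZFC ∧
    (∀ (T : Set (Fml 0)) (φ : Fml 0), Prf T [] φ ↔
      ∀ (M : Type v) (E : M → M → Prop), Nonempty M → (∀ ψ ∈ T, ψ.Sat E Fin.elim0) →
        φ.Sat E Fin.elim0) ∧
    ∀ (M : Type v) (E : M → M → Prop), (∀ ψ ∈ ZFC, ψ.Sat E Fin.elim0) ↔ IsZFCModel E := by
  simp only [prf_iff, con_iff, zfc_eq]
  exact ⟨con_of_model ((Syn.isZFCModel_iff _).1 P070ZS.zfc_in.{0}), prf_iff_models,
    fun _ E => (Syn.isZFCModel_iff E).symm⟩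

end Vale.Agent.P070ZQ
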